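import Mathlib

namespace Vale.Agent.P040

/-- Pairs of equal colour in a two-colouring are at least `⌊k/2⌋⌊(k-1)/2⌋` in number. -/
theorem same_colour_pairs {α : Type*} [Fintype α] [LinearOrder α] (f : α → Bool) :
    (Fintype.card α / 2) * ((Fintype.card α - 1) / 2) ≤
      ((Finset.univ : Finset (α × α)).filter fun x => x.1 < x.2 ∧ f x.1 = f x.2).card := by
  classical
  set F := (Finset.univ : Finset (α × α)).filter fun x => x.1 < x.2 ∧ f x.1 = f x.2 with hF
  set S := (Finset.univ : Finset α).filter fun i => f i = true with hS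
  set T := (Finset.univ : Finset α).filter fun i => f i = false with hT
  have hsum : S.card + T.card = Fintype.card α := by
    have h := Finset.card_filter_add_card_filter_not
      (s := (Finset.univ : Finset α)) (p := fun i => f i = true)
    simpa [hS, hT] using h
  have hsub : S.offDiag ∪ T.offDiag ⊆ F ∪ F.image Prod.swap := by
    intro x hx
    obtain ⟨i, j⟩ := x
    have hne : i ≠ j := by
      rcases Finset.mem_union.1 hx with h | h <;> exact (Finset.mem_offDiag.1 h).2.2
    have heq : f i = f j := by
      rcases Finset.mem_union.1 hx with h | h <;>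
        · obtain ⟨h1, h2, -⟩ := Finset.mem_offDiag.1 h
          simp_all
    rcases lt_or_gt_of_ne hne with hlt | hlt
    · exact Finset.mem_union_left _ (by simp [hF, hlt, heq])
    · refine Finset.mem_union_right _ (Finset.mem_image.2 ⟨(j, i), ?_, rfl⟩)
      simp [hF, hlt, heq]
  have hdis : Disjoint S.offDiag T.offDiag := by
    rw [Finset.disjoint_left]
    rintro ⟨i, j⟩ h1 h2
    have a := (Finset.mem_offDiag.1 h1).1
    have b := (Finset.mem_offDiag.1 h2).1
    simp_all
  have hcard := (Finset.card_le_card hsub).trans (Finset.card_union_le _ _)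
  rw [Finset.card_union_of_disjoint hdis, Finset.offDiag_card, Finset.offDiag_card] at hcard
  have him := Finset.card_image_le (s := F) (f := Prod.swap)
  rw [← hsum]
  generalize S.card = p at *
  generalize T.card = q at *
  have hp : p ≤ p * p := Nat.le_mul_self p
  have hq : q ≤ q * q := Nat.le_mul_self q
  rcases Nat.even_or_odd' (p + q) with ⟨t, ht | ht⟩
  · rw [ht, show 2 * t / 2 = t by omega, show (2 * t - 1) / 2 = t - 1 by omega]
    have h2 : (p : ℤ) * p - p + (q * q - q) ≤ 2 * F.card := by omega
    have h3 : (p : ℤ) + q = 2 * t := by exact_mod_cast ht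
    rcases Nat.eq_zero_or_pos t with rfl | htp
    · simp
    · zify [htp]
      nlinarith [sq_nonneg ((p : ℤ) - q)]
  · rw [ht, show (2 * t + 1) / 2 = t by omega, show (2 * t + 1 - 1) / 2 = t by omega]
    have h2 : (p : ℤ) * p - p + (q * q - q) ≤ 2 * F.card := by omega
    have h3 : (p : ℤ) + q = 2 * t + 1 := by exact_mod_cast ht
    have hne : (p : ℤ) - q ≤ -1 ∨ 1 ≤ (p : ℤ) - q := by omega
    have h4 : 1 ≤ ((p : ℤ) - q) ^ 2 := by rcases hne with h | h <;> nlinarith
    zify
    nlinarith

end Vale.Agent.P040
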