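import Mathlib

namespace Vale.Agent.P040

open Complex

/-- The point with radius `r` and angle `t` measured in full turns. -/
noncomputable def polarPt (r t : ℝ) : ℂ :=
  (r : ℂ) * Complex.exp (((2 * Real.pi * t : ℝ) : ℂ) * Complex.I)

/-- A drawing of the complete bipartite graph with one class on the unit circle and
radially monotone edges. The edge from `B b` to `A a` is `r ↦ polarPt r (ang b a r)`. -/
structure RadialDrawing (m n : ℕ) where
  A : Fin m → ℂ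
  B : Fin n → ℂ
  ang : Fin n → Fin m → ℝ → ℝ
  injA : Function.Injective A
  injB : Function.Injective B
  onCircle : ∀ a, ‖A a‖ = 1
  offCircle : ∀ b, ‖B b‖ ≠ 1
  offOrigin : ∀ b, B b ≠ 0
  cont : ∀ b a, ContinuousOn (ang b a) (Set.uIcc 1 ‖B b‖)
  atA : ∀ b a, polarPt 1 (ang b a 1) = A a
  atB : ∀ b a, polarPt ‖B b‖ (ang b a ‖B b‖) = B b
  avoidB : ∀ b a c, ∀ r ∈ Set.uIoo 1 ‖B b‖, polarPt r (ang b a r) ≠ B c
  finCross : {z : ℂ | ∃ e f : Fin n × Fin m, e ≠ f ∧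
      (∃ r ∈ Set.uIoo 1 ‖B e.1‖, polarPt r (ang e.1 e.2 r) = z) ∧
      (∃ r ∈ Set.uIoo 1 ‖B f.1‖, polarPt r (ang f.1 f.2 r) = z)}.Finite
  atMostTwo : ∀ (z : ℂ) (e f g : Fin n × Fin m),
      (∃ r ∈ Set.uIoo 1 ‖B e.1‖, polarPt r (ang e.1 e.2 r) = z) →
      (∃ r ∈ Set.uIoo 1 ‖B f.1‖, polarPt r (ang f.1 f.2 r) = z) →
      (∃ r ∈ Set.uIoo 1 ‖B g.1‖, polarPt r (ang g.1 g.2 r) = z) →
      e = f ∨ e = g ∨ f = g

variable {m n : ℕ}

/-- The interior of an edge, as a point set. -/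
def RadialDrawing.edge (D : RadialDrawing m n) (e : Fin n × Fin m) : Set ℂ :=
  {z | ∃ r ∈ Set.uIoo 1 ‖D.B e.1‖, polarPt r (D.ang e.1 e.2 r) = z}

/-- The crossing points: points of two different edge interiors. -/
def RadialDrawing.crossings (D : RadialDrawing m n) : Set ℂ :=
  {z | ∃ e f : Fin n × Fin m, e ≠ f ∧ z ∈ D.edge e ∧ z ∈ D.edge f}

end Vale.Agent.P040
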