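import Mathlib
import Vale.Agent.P040.Defs
import Vale.Agent.P040.Count

namespace Vale.Agent.P040

open Complex

variable {m n : ℕ}

theorem norm_polarPt {r : ℝ} (hr : 0 < r) (t : ℝ) : ‖polarPt r t‖ = r := by
  rw [polarPt, norm_mul, Complex.norm_real, Complex.norm_exp_ofReal_mul_I, mul_one,
    Real.norm_eq_abs, abs_of_pos hr]

theorem polarPt_shift (r t : ℝ) (N : ℤ) : polarPt r (t + N) = polarPt r t := by
  unfold polarPt
  have h : (((2 * Real.pi * (t + N) : ℝ) : ℂ) * I) =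
      ((2 * Real.pi * t : ℝ) : ℂ) * I + (N : ℂ) * (2 * Real.pi * I) := by
    push_cast
    ring
  rw [h, Complex.exp_add, Complex.exp_int_mul_two_pi_mul_I, mul_one]

theorem exists_int_of_polarPt_eq {r s t : ℝ} (hr : r ≠ 0) (h : polarPt r s = polarPt r t) :
    ∃ N : ℤ, s - t = N := by
  unfold polarPt at h
  have h' := mul_left_cancel₀ (Complex.ofReal_ne_zero.2 hr) h
  obtain ⟨N, hN⟩ := Complex.exp_eq_exp_iff_exists_int.1 h'
  refine ⟨N, ?_⟩
  have h2 := congrArg Complex.im hN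
  simp at h2
  have hpi := Real.pi_pos
  nlinarith

/-- A continuous function with non-integer end values and different integer parts
takes an integer value strictly between the ends. -/
theorem exists_int_value {g : ℝ → ℝ} {a b : ℝ} (hg : ContinuousOn g (Set.uIcc a b))
    (ha : ∀ N : ℤ, g a ≠ N) (hb : ∀ N : ℤ, g b ≠ N) (hne : ⌊g a⌋ ≠ ⌊g b⌋) :
    ∃ r ∈ Set.uIoo a b, ∃ N : ℤ, g r = N := by
  obtain ⟨N, hN⟩ : ∃ N : ℤ, (N : ℝ) ∈ Set.uIcc (g a) (g b) := by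
    rcases lt_or_gt_of_ne hne with h | h
    · refine ⟨⌊g b⌋, Set.mem_uIcc.2 (Or.inl ⟨?_, Int.floor_le _⟩)⟩
      exact (Int.lt_floor_add_one (g a)).le.trans (by exact_mod_cast h)
    · refine ⟨⌊g a⌋, Set.mem_uIcc.2 (Or.inr ⟨?_, Int.floor_le _⟩)⟩
      exact (Int.lt_floor_add_one (g b)).le.trans (by exact_mod_cast h)
  obtain ⟨r, hr, hrN⟩ := intermediate_value_uIcc hg hN
  refine ⟨r, ?_, N, hrN⟩
  have h1 : r ≠ a := fun e => ha N (e ▸ hrN)
  have h2 : r ≠ b := fun e => hb N (e ▸ hrN)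
  rw [Set.mem_uIcc] at hr
  rcases hr with ⟨u, v⟩ | ⟨u, v⟩
  · exact Set.mem_uIoo_of_lt (lt_of_le_of_ne u h1.symm) (lt_of_le_of_ne v h2)
  · exact Set.mem_uIoo_of_gt (lt_of_le_of_ne u h2.symm) (lt_of_le_of_ne v h1)

namespace RadialDrawing

variable (D : RadialDrawing m n)

/-- The two edges named by a pair of `B`-vertices and a pair of `A`-vertices meet. -/
def Meets (b c : Fin n) (i p : Fin m) : Prop :=
  (∃ z, z ∈ D.edge (b, i) ∧ z ∈ D.edge (c, p)) ∨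
    (∃ z, z ∈ D.edge (b, p) ∧ z ∈ D.edge (c, i))

theorem meets_comm {b c : Fin n} {i p : Fin m} (h : D.Meets b c i p) : D.Meets c b i p := by
  rcases h with ⟨z, h1, h2⟩ | ⟨z, h1, h2⟩
  · exact Or.inr ⟨z, h2, h1⟩
  · exact Or.inl ⟨z, h2, h1⟩

/-- If two edges do not meet, the difference of their angles keeps its integer part. -/
theorem no_meet_floor {b c : Fin n} {i p : Fin m} (hbc : b ≠ c) (hip : i ≠ p)
    (hsub : ‖D.B c‖ ∈ Set.uIcc 1 ‖D.B b‖)
    (h : ¬ ∃ z, z ∈ D.edge (b, i) ∧ z ∈ D.edge (c, p)) :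
    (∀ N : ℤ, D.ang b i 1 - D.ang c p 1 ≠ N) ∧
      ⌊D.ang b i 1 - D.ang c p 1⌋ = ⌊D.ang b i ‖D.B c‖ - D.ang c p ‖D.B c‖⌋ := by
  have ha : ∀ N : ℤ, D.ang b i 1 - D.ang c p 1 ≠ N := by
    intro N hN
    apply hip
    apply D.injA
    have e : D.ang b i 1 = D.ang c p 1 + N := by linarith
    rw [← D.atA b i, ← D.atA c p, e, polarPt_shift]
  refine ⟨ha, ?_⟩
  have hc : ∀ N : ℤ, D.ang b i ‖D.B c‖ - D.ang c p ‖D.B c‖ ≠ N := by
    intro N hN
    have e : D.ang b i ‖D.B c‖ = D.ang c p ‖D.B c‖ + N := by linarith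
    have hz : polarPt ‖D.B c‖ (D.ang b i ‖D.B c‖) = D.B c := by
      rw [e, polarPt_shift, D.atB]
    by_cases hr : ‖D.B c‖ = ‖D.B b‖
    · rw [hr, D.atB] at hz
      exact hbc (D.injB hz)
    · refine D.avoidB b i c ‖D.B c‖ ?_ hz
      rw [Set.mem_uIcc] at hsub
      have h1 := D.offCircle c
      rcases hsub with ⟨u, v⟩ | ⟨u, v⟩
      · exact Set.mem_uIoo_of_lt (lt_of_le_of_ne u h1.symm) (lt_of_le_of_ne v hr)
      · exact Set.mem_uIoo_of_gt (lt_of_le_of_ne u (Ne.symm hr)) (lt_of_le_of_ne v h1)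
  by_contra hne
  have hss : Set.uIcc 1 ‖D.B c‖ ⊆ Set.uIcc 1 ‖D.B b‖ :=
    Set.uIcc_subset_uIcc Set.left_mem_uIcc hsub
  obtain ⟨r, hr, N, hN⟩ := exists_int_value
    (g := fun r => D.ang b i r - D.ang c p r) (a := 1) (b := ‖D.B c‖)
    (((D.cont b i).mono hss).sub (D.cont c p)) ha hc hne
  apply h
  refine ⟨polarPt r (D.ang c p r), ⟨r, ?_, ?_⟩, ⟨r, hr, rfl⟩⟩
  · rw [Set.mem_uIcc] at hsub
    simp only [Set.uIoo, Set.mem_Ioo] at hr ⊢
    rcases hsub with ⟨u, v⟩ | ⟨u, v⟩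
    · rw [inf_eq_left.2 u, sup_eq_right.2 u] at hr
      rw [inf_eq_left.2 (u.trans v), sup_eq_right.2 (u.trans v)]
      exact ⟨hr.1, lt_of_lt_of_le hr.2 v⟩
    · rw [inf_eq_right.2 v, sup_eq_left.2 v] at hr
      rw [inf_eq_right.2 (u.trans v), sup_eq_left.2 (u.trans v)]
      exact ⟨lt_of_le_of_lt u hr.1, hr.2⟩
  · have e : D.ang b i r = D.ang c p r + N := by linarith
    show polarPt r (D.ang b i r) = _
    rw [e, polarPt_shift]

/-- For two vertices on one side of the circle some two-colouring of the circle class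
has a crossing for each pair of one colour. -/
theorem exists_colouring_oriented {b c : Fin n} (hbc : b ≠ c)
    (hsub : ‖D.B c‖ ∈ Set.uIcc 1 ‖D.B b‖) :
    ∃ f : Fin m → Bool, ∀ i p, i ≠ p → f i = f p → D.Meets b c i p := by
  classical
  have hk : ∀ a, ∃ k : ℤ,
      D.ang b a 1 - D.ang c a 1 - ⌊D.ang b a ‖D.B c‖ - D.ang c a ‖D.B c‖⌋ = k := by
    intro a
    obtain ⟨N, hN⟩ := exists_int_of_polarPt_eq one_ne_zero
      ((D.atA b a).trans (D.atA c a).symm)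
    exact ⟨N - ⌊D.ang b a ‖D.B c‖ - D.ang c a ‖D.B c‖⌋, by push_cast; linarith⟩
  choose k hk using hk
  refine ⟨fun a => decide (1 ≤ k a), fun i p hip hcol => ?_⟩
  by_contra hno
  simp only [Meets, not_or] at hno
  obtain ⟨a1, e1⟩ := D.no_meet_floor hbc hip hsub hno.1
  obtain ⟨a2, e2⟩ := D.no_meet_floor hbc hip.symm hsub hno.2
  have hB : ‖D.B c‖ ≠ 0 := norm_ne_zero_iff.2 (D.offOrigin c)
  obtain ⟨M, hM⟩ := exists_int_of_polarPt_eq hB ((D.atB c i).trans (D.atB c p).symm)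
  have r1 : D.ang b i ‖D.B c‖ - D.ang c p ‖D.B c‖ =
      D.ang b i ‖D.B c‖ - D.ang c i ‖D.B c‖ + (M : ℝ) := by linarith
  have r2 : D.ang b p ‖D.B c‖ - D.ang c i ‖D.B c‖ =
      D.ang b p ‖D.B c‖ - D.ang c p ‖D.B c‖ + ((-M : ℤ) : ℝ) := by push_cast; linarith
  rw [r1, Int.floor_add_intCast] at e1
  rw [r2, Int.floor_add_intCast] at e2
  have l1 := Int.floor_le (D.ang b i 1 - D.ang c p 1)
  have u1 := Int.lt_floor_add_one (D.ang b i 1 - D.ang c p 1)
  have l2 := Int.floor_le (D.ang b p 1 - D.ang c i 1)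
  have u2 := Int.lt_floor_add_one (D.ang b p 1 - D.ang c i 1)
  have l1' := lt_of_le_of_ne l1 (Ne.symm (a1 _))
  have l2' := lt_of_le_of_ne l2 (Ne.symm (a2 _))
  rw [e1] at l1' u1
  rw [e2] at l2' u2
  push_cast at l1' u1 l2' u2
  have hi := hk i
  have hp := hk p
  have h0 : (0 : ℝ) < ((k i + k p : ℤ) : ℝ) := by push_cast; linarith
  have h2 : ((k i + k p : ℤ) : ℝ) < 2 := by push_cast; linarith
  have hs : k i + k p = 1 := by
    have a : 0 < k i + k p := by exact_mod_cast h0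
    have b : k i + k p < 2 := by exact_mod_cast h2
    omega
  have := decide_eq_decide.1 hcol
  omega

theorem exists_colouring {b c : Fin n} (hbc : b ≠ c)
    (hside : decide (1 < ‖D.B b‖) = decide (1 < ‖D.B c‖)) :
    ∃ f : Fin m → Bool, ∀ i p, i ≠ p → f i = f p → D.Meets b c i p := by
  have hiff := decide_eq_decide.1 hside
  have hb := D.offCircle b
  have hc := D.offCircle c
  have key : ‖D.B c‖ ∈ Set.uIcc 1 ‖D.B b‖ ∨ ‖D.B b‖ ∈ Set.uIcc 1 ‖D.B c‖ := by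
    simp only [Set.mem_uIcc]
    rcases lt_or_gt_of_ne hb with h | h
    · have hc1 : ‖D.B c‖ ≤ 1 := not_lt.1 fun x => lt_asymm h (hiff.2 x)
      rcases le_total ‖D.B b‖ ‖D.B c‖ with g | g
      · exact Or.inl (Or.inr ⟨g, hc1⟩)
      · exact Or.inr (Or.inr ⟨g, h.le⟩)
    · have hc1 : 1 ≤ ‖D.B c‖ := (hiff.1 h).le
      rcases le_total ‖D.B b‖ ‖D.B c‖ with g | g
      · exact Or.inr (Or.inl ⟨h.le, g⟩)
      · exact Or.inl (Or.inl ⟨hc1, g⟩)
  rcases key with h | h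
  · exact D.exists_colouring_oriented hbc h
  · obtain ⟨f, hf⟩ := D.exists_colouring_oriented hbc.symm h
    exact ⟨f, fun i p u v => D.meets_comm (hf i p u v)⟩

/-- The Zarankiewicz bound for radial drawings. -/
theorem crossings_ge :
    (m / 2) * ((m - 1) / 2) * ((n / 2) * ((n - 1) / 2)) ≤ D.crossings.ncard := by
  classical
  set P := (Finset.univ : Finset (Fin n × Fin n)).filter fun q =>
    q.1 < q.2 ∧ decide (1 < ‖D.B q.1‖) = decide (1 < ‖D.B q.2‖) with hPdef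
  have hP : (n / 2) * ((n - 1) / 2) ≤ P.card := by
    simpa [hPdef] using same_colour_pairs fun b : Fin n => decide (1 < ‖D.B b‖)
  have hcol : ∀ q : Fin n × Fin n, ∃ f : Fin m → Bool,
      q ∈ P → ∀ i p, i ≠ p → f i = f p → D.Meets q.1 q.2 i p := by
    intro q
    by_cases hq : q ∈ P
    · obtain ⟨h1, h2⟩ := (Finset.mem_filter.1 hq).2
      obtain ⟨f, hf⟩ := D.exists_colouring h1.ne h2
      exact ⟨f, fun _ => hf⟩
    · exact ⟨fun _ => true, fun h => absurd h hq⟩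
  choose f hf using hcol
  set S := P.sigma fun q => (Finset.univ : Finset (Fin m × Fin m)).filter fun x =>
    x.1 < x.2 ∧ f q x.1 = f q x.2 with hSdef
  have hS : (m / 2) * ((m - 1) / 2) * ((n / 2) * ((n - 1) / 2)) ≤ S.card := by
    calc _ ≤ (m / 2) * ((m - 1) / 2) * P.card := Nat.mul_le_mul_left _ hP
      _ = ∑ _q ∈ P, (m / 2) * ((m - 1) / 2) := by
        rw [Finset.sum_const, smul_eq_mul, mul_comm]
      _ ≤ _ := by
        rw [hSdef, Finset.card_sigma]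
        exact Finset.sum_le_sum fun q _ => by simpa using same_colour_pairs (f q)
  have hex : ∀ x : (_ : Fin n × Fin n) × (Fin m × Fin m), ∃ z, x ∈ S →
      (z ∈ D.edge (x.1.1, x.2.1) ∧ z ∈ D.edge (x.1.2, x.2.2)) ∨
      (z ∈ D.edge (x.1.1, x.2.2) ∧ z ∈ D.edge (x.1.2, x.2.1)) := by
    intro x
    by_cases hx : x ∈ S
    · obtain ⟨h1, h2⟩ := Finset.mem_sigma.1 hx
      obtain ⟨h3, h4⟩ := (Finset.mem_filter.1 h2).2
      rcases hf x.1 h1 _ _ h3.ne h4 with ⟨z, hz⟩ | ⟨z, hz⟩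
      · exact ⟨z, fun _ => Or.inl hz⟩
      · exact ⟨z, fun _ => Or.inr hz⟩
    · exact ⟨0, fun h => absurd h hx⟩
  choose Z hZ using hex
  have hfin : D.crossings.Finite := D.finCross
  refine hS.trans ?_
  rw [Set.ncard_eq_toFinset_card _ hfin]
  refine Finset.card_le_card_of_injOn Z ?_ ?_
  · intro x hx
    have hx' : x ∈ S := hx
    obtain ⟨h1, -⟩ := Finset.mem_sigma.1 hx'
    have hne : x.1.1 ≠ x.1.2 := (Finset.mem_filter.1 h1).2.1.ne
    simp only [Finset.mem_coe, Set.Finite.mem_toFinset]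
    rcases hZ x hx' with ⟨u, v⟩ | ⟨u, v⟩
    · exact ⟨_, _, fun e => hne (congrArg Prod.fst e), u, v⟩
    · exact ⟨_, _, fun e => hne (congrArg Prod.fst e), u, v⟩
  · rintro ⟨⟨b, c⟩, ⟨i, p⟩⟩ hx ⟨⟨b', c'⟩, ⟨i', p'⟩⟩ hy hxy
    have hx' : (⟨(b, c), (i, p)⟩ : (_ : Fin n × Fin n) × (Fin m × Fin m)) ∈ S := hx
    have hy' : (⟨(b', c'), (i', p')⟩ : (_ : Fin n × Fin n) × (Fin m × Fin m)) ∈ S := hy
    obtain ⟨h1, h2⟩ := Finset.mem_sigma.1 hx'
    obtain ⟨g1, g2⟩ := Finset.mem_sigma.1 hy'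
    have hbc : b < c := (Finset.mem_filter.1 h1).2.1
    have hbc' : b' < c' := (Finset.mem_filter.1 g1).2.1
    have hip : i < p := (Finset.mem_filter.1 h2).2.1
    have hip' : i' < p' := (Finset.mem_filter.1 g2).2.1
    have A := hZ _ hx'
    have B := hZ _ hy'
    simp only at A B hxy
    rw [← hxy] at B
    have three := D.atMostTwo (Z ⟨(b, c), (i, p)⟩)
    rcases A with ⟨u, v⟩ | ⟨u, v⟩ <;> rcases B with ⟨u', v'⟩ | ⟨u', v'⟩ <;>
      · have t1 := three _ _ _ u v u'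
        have t2 := three _ _ _ u v v'
        simp only [Prod.mk.injEq] at t1 t2
        rcases t1 with ⟨a1, a2⟩ | ⟨a1, a2⟩ | ⟨a1, a2⟩ <;>
          rcases t2 with ⟨c1, c2⟩ | ⟨c1, c2⟩ | ⟨c1, c2⟩ <;>
            subst_vars <;> first | rfl | omega

end RadialDrawing

end Vale.Agent.P040
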